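import Mathlib

/-!
# P192: cuts along a geodesic in a tree
-/

namespace Vale.Agent.P192.TreeLike

variable {V : Type*} {T : SimpleGraph V}

/-- The points on the near side of the `j`th edge of a walk. -/
def Side {v₀ t : V} (p : T.Walk v₀ t) (j : ℕ) : Set V :=
  {x | ∃ q : T.Walk v₀ x, s(p.getVert j, p.getVert (j + 1)) ∉ q.edges}

/-- A walk leaving a side passes the end points of its edge. -/
theorem cross {v₀ t : V} {p : T.Walk v₀ t} {j : ℕ} {v u : V} (hv : v ∈ Side p j)
    (hu : u ∉ Side p j) (w : T.Walk v u) :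
    p.getVert j ∈ w.support ∧ p.getVert (j + 1) ∈ w.support := by
  have h : s(p.getVert j, p.getVert (j + 1)) ∈ w.edges := by
    by_contra h
    obtain ⟨q, hq⟩ := hv
    exact hu ⟨q.append w, by simp [hq, h]⟩
  exact ⟨w.fst_mem_support_of_mem_edges h, w.snd_mem_support_of_mem_edges h⟩

variable {v₀ t : V} {p : T.Walk v₀ t}

theorem not_mem_edges_take (hp : p.IsPath) {i j : ℕ} (hij : i ≤ j) (hj : j < p.length) :
    s(p.getVert j, p.getVert (j + 1)) ∉ (p.take i).edges := by
  intro h
  have := (p.take i).snd_mem_support_of_mem_edges h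
  obtain ⟨n, hn, hle⟩ := SimpleGraph.Walk.mem_support_iff_exists_getVert.1 this
  rw [SimpleGraph.Walk.take_getVert] at hn
  rw [SimpleGraph.Walk.take_length] at hle
  have := hp.getVert_injOn (show i ⊓ n ≤ p.length by omega) (show j + 1 ≤ p.length by omega) hn
  omega

theorem getVert_mem_side (hp : p.IsPath) {i j : ℕ} (hij : i ≤ j) (hj : j < p.length) :
    p.getVert i ∈ Side p j :=
  ⟨p.take i, not_mem_edges_take hp hij hj⟩

theorem start_mem_side {j : ℕ} : v₀ ∈ Side p j := ⟨.nil, by simp⟩

theorem getVert_succ_not_mem_side (hT : T.IsTree) (hp : p.IsPath) {j : ℕ} (hj : j < p.length) :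
    p.getVert (j + 1) ∉ Side p j := by
  rintro ⟨q, hq⟩
  have hb := SimpleGraph.isBridge_iff_forall_walk_mem_edges.1
    (SimpleGraph.isAcyclic_iff_forall_adj_isBridge.1 hT.isAcyclic (p.adj_getVert_succ hj))
    ((p.take j).reverse.append q)
  simp only [SimpleGraph.Walk.edges_append, SimpleGraph.Walk.edges_reverse, List.mem_append,
    List.mem_reverse] at hb
  exact hb.elim (not_mem_edges_take hp le_rfl hj) hq

theorem getVert_not_mem_side (hT : T.IsTree) (hp : p.IsPath) {i j : ℕ} (hij : j < i)
    (hi : i ≤ p.length) : p.getVert i ∉ Side p j := by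
  intro h
  have h' := getVert_succ_not_mem_side hT hp (show j < p.length by omega)
  let w : T.Walk (p.getVert i) (p.getVert (j + 1)) :=
    (((p.drop (j + 1)).take (i - (j + 1))).reverse).copy
      (by rw [SimpleGraph.Walk.drop_getVert]; congr 1; omega) rfl
  have hm := (cross h h' w).1
  simp only [w, SimpleGraph.Walk.support_copy, SimpleGraph.Walk.support_reverse,
    List.mem_reverse] at hm
  obtain ⟨n, hn, hle⟩ := SimpleGraph.Walk.mem_support_iff_exists_getVert.1 hm
  rw [SimpleGraph.Walk.take_getVert, SimpleGraph.Walk.drop_getVert] at hn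
  rw [SimpleGraph.Walk.take_length, SimpleGraph.Walk.drop_length] at hle
  have := hp.getVert_injOn (show j + 1 + (i - (j + 1)) ⊓ n ≤ p.length by omega)
    (show j ≤ p.length by omega) hn
  omega

/-- The sides grow along a path. -/
theorem side_mono (hT : T.IsTree) (hp : p.IsPath) {i j : ℕ} (hij : i < j) (hj : j < p.length) :
    Side p i ⊆ Side p j := by
  classical
  rintro x ⟨q, hq⟩
  refine ⟨q, fun h => getVert_not_mem_side hT hp hij hj.le ?_⟩
  exact ⟨q.takeUntil _ (q.fst_mem_support_of_mem_edges h), fun h' =>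
    hq (q.edges_takeUntil_subset_edges _ h')⟩

theorem dist_getVert (hT : T.IsTree) (hlen : p.length = T.dist v₀ t) {i j : ℕ} (hij : i ≤ j)
    (hj : j ≤ p.length) : j - i ≤ T.dist (p.getVert i) (p.getVert j) := by
  have h1 := T.dist_le (p.take i)
  have h2 := T.dist_le (p.drop j)
  rw [SimpleGraph.Walk.take_length] at h1
  rw [SimpleGraph.Walk.drop_length] at h2
  have h3 := hT.connected.dist_triangle (u := v₀) (v := p.getVert i) (w := t)
  have h4 := hT.connected.dist_triangle (u := p.getVert i) (v := p.getVert j) (w := t)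
  omega

/-- The end points of the edge are near a crossing. -/
theorem dist_cross (hT : T.IsTree) {j : ℕ} {v u : V} (hv : v ∈ Side p j) (hu : u ∉ Side p j) :
    T.dist v (p.getVert j) ≤ T.dist v u := by
  classical
  obtain ⟨w, hw⟩ := hT.connected.exists_walk_length_eq_dist v u
  have hm := (cross hv hu w).1
  exact (T.dist_le (w.takeUntil _ hm)).trans ((w.length_takeUntil_le_length hm).trans hw.le)

/-- A short step does not leave two distant sides. -/
theorem step_mem_side (hT : T.IsTree) (hp : p.IsPath) (hlen : p.length = T.dist v₀ t)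
    {i j L : ℕ} (hij : i + 2 * L < j) (hj : j < p.length) {v u : V} (hv : v ∈ Side p i)
    (hd : T.dist v u ≤ L) : u ∈ Side p j := by
  classical
  by_contra hu
  have hij' : i < j := by omega
  obtain ⟨w, hw⟩ := hT.connected.exists_walk_length_eq_dist v u
  have hmj := (cross (side_mono hT hp hij' hj hv) hu w).1
  have h1 : T.dist v (p.getVert j) ≤ L :=
    (T.dist_le (w.takeUntil _ hmj)).trans
      ((w.length_takeUntil_le_length hmj).trans (hw.le.trans hd))
  have hmi := (cross hv (getVert_not_mem_side hT hp hij' hj.le) (w.takeUntil _ hmj)).1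
  have h2 : T.dist v (p.getVert i) ≤ L :=
    (T.dist_le ((w.takeUntil _ hmj).takeUntil _ hmi)).trans
      (((w.takeUntil _ hmj).length_takeUntil_le_length hmi).trans
        ((w.length_takeUntil_le_length hmj).trans (hw.le.trans hd)))
  have h3 := dist_getVert hT hlen hij'.le hj.le
  have h4 := hT.connected.dist_triangle (u := p.getVert i) (v := v) (w := p.getVert j)
  rw [SimpleGraph.dist_comm (u := p.getVert i) (v := v)] at h4
  omega

/-- Balls of a tree of bounded degree are finite and bounded. -/
theorem ball_bound (hT : T.IsTree) {d : ℕ}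
    (hd : ∀ v, (T.neighborSet v).Finite ∧ (T.neighborSet v).ncard ≤ d) (v : V) :
    ∀ n, ∃ s : Finset V, s.card ≤ (d + 1) ^ n ∧ ∀ u, T.dist v u ≤ n → u ∈ s := by
  classical
  intro n
  induction n with
  | zero =>
    refine ⟨{v}, by simp, fun u hu => ?_⟩
    have := (hT.connected.dist_eq_zero_iff).1 (Nat.le_zero.1 hu)
    simp [this]
  | succ n ih =>
    obtain ⟨s, hs, hmem⟩ := ih
    refine ⟨s.biUnion fun w => insert w (hd w).1.toFinset, ?_, fun u hu => ?_⟩
    · refine (Finset.card_biUnion_le_card_mul _ _ (d + 1) fun w _ => ?_).trans ?_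
      · refine (Finset.card_insert_le _ _).trans (Nat.succ_le_succ ?_)
        rw [← Set.ncard_eq_toFinset_card _ (hd w).1]
        exact (hd w).2
      · rw [pow_succ]
        exact Nat.mul_le_mul_right _ hs
    · obtain ⟨w, hw⟩ := hT.connected.exists_walk_length_eq_dist v u
      by_cases h : T.dist v u ≤ n
      · exact Finset.mem_biUnion.2 ⟨u, hmem u h, Finset.mem_insert_self _ _⟩
      · have h1 := T.dist_le (w.take n)
        rw [SimpleGraph.Walk.take_length] at h1
        have h2 : T.Adj (w.getVert n) (w.getVert (n + 1)) := w.adj_getVert_succ (by omega)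
        rw [show n + 1 = w.length by omega, SimpleGraph.Walk.getVert_length] at h2
        exact Finset.mem_biUnion.2 ⟨w.getVert n, hmem _ (h1.trans (by omega)),
          Finset.mem_insert_of_mem ((Set.Finite.mem_toFinset _).2 h2)⟩

end Vale.Agent.P192.TreeLike
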