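import Vale.Agent.P192.Bottleneck.Main
import Vale.Agent.P192.TreeLike.Tree

/-!
# P192: finitely presented periodic groups moving points of a tree boundedly

Long geodesics give long chains of (infinite) cuts with bounded boundary, so orbits are uniformly
bounded and the image is finite.
-/

namespace Vale.Agent.P192.TreeLike

open Bottleneck

variable {m : ℕ} {G : Type*} [Group G] {π : FreeGroup (Fin m) →* G} {X : Type*} [MulAction G X]
  {V : Type*} {T : SimpleGraph V}

theorem dist_smul_le (hT : T.IsTree) {f : X → V} {C : ℕ}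
    (hC : ∀ (a : Fin m × Bool) (x : X), T.dist (f (act π [a] • x)) (f x) ≤ C)
    (u : List (Fin m × Bool)) (x : X) : T.dist (f (act π u • x)) (f x) ≤ u.length * C := by
  induction u with
  | nil => simp
  | cons a v ih =>
    rw [act_cons, mul_smul, List.length_cons, Nat.succ_mul]
    have h := hT.connected.dist_triangle (u := f (act π [a] • act π v • x))
      (v := f (act π v • x)) (w := f x)
    have := hC a (act π v • x)
    omega

/-- Orbits are uniformly bounded. -/
theorem orbit_bound (hπ : Function.Surjective π) (ht : IsMulTorsion G)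
    {R : Set (FreeGroup (Fin m))} (hR : Subgroup.normalClosure R = π.ker) {r : ℕ}
    (hlen : ∀ x ∈ R, x.toWord.length ≤ r) (hr : 2 ≤ r) (hT : T.IsTree) {d M : ℕ}
    (hd : ∀ v, (T.neighborSet v).Finite ∧ (T.neighborSet v).ncard ≤ d) {f : X → V}
    (hf : ∀ v, (f ⁻¹' {v}).Finite ∧ (f ⁻¹' {v}).ncard ≤ M) {C : ℕ}
    (hC : ∀ (a : Fin m × Bool) (x : X), T.dist (f (act π [a] • x)) (f x) ≤ C) :
    ∃ N, ∀ x : X, ∃ s : Finset X, s.card ≤ N ∧ ∀ g : G, g • x ∈ s := by
  classical
  have hball : ∀ (v : V) (n : ℕ), ∃ s : Finset X, s.card ≤ (d + 1) ^ n * M ∧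
      ∀ y, T.dist v (f y) ≤ n → y ∈ s := fun v n => by
    obtain ⟨s, hs, hmem⟩ := ball_bound hT hd v n
    refine ⟨s.biUnion fun u => (hf u).1.toFinset, ?_, fun y hy => ?_⟩
    · refine (Finset.card_biUnion_le_card_mul _ _ M fun u _ => ?_).trans
        (Nat.mul_le_mul_right _ hs)
      rw [← Set.ncard_eq_toFinset_card _ (hf u).1]
      exact (hf u).2
    · exact Finset.mem_biUnion.2 ⟨f y, hmem _ hy, by simp⟩
  set w := (d + 1) ^ C * M
  set K := Nat.card (Shape m (w * wordCount m r)) + 1
  obtain ⟨D, hD⟩ : ∃ D, D = 2 * ((r + 1) * C) + 1 := ⟨_, rfl⟩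
  refine ⟨(d + 1) ^ (K * D) * M, fun x₀ => ?_⟩
  by_cases hfar : ∀ g : G, T.dist (f x₀) (f (g • x₀)) ≤ K * D
  · obtain ⟨s, hs, hmem⟩ := hball (f x₀) (K * D)
    exact ⟨s, hs, fun g => hmem _ (hfar g)⟩
  exfalso
  push Not at hfar
  obtain ⟨g, hg⟩ := hfar
  obtain ⟨p, hp⟩ := hT.connected.exists_walk_length_eq_dist (f x₀) (f (g • x₀))
  have hpath : p.IsPath := p.isPath_of_length_eq_dist hp
  have hlt : ∀ n, n < K → n * D < p.length := fun n hn =>
    lt_of_le_of_lt (Nat.mul_le_mul_right _ hn.le) (hp.symm ▸ hg)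
  let P : ℕ → Set X := fun n => f ⁻¹' Side p (n * D)
  let E : ℕ → Set X := fun n => {y | Conn π (P n) x₀ y}
  have hbase : ∀ n, x₀ ∈ P n := fun n => start_mem_side
  have hb : ∀ n, n < K → {y | Bd π (E n) y}.Finite ∧ {y | Bd π (E n) y}.ncard ≤ w := by
    intro n _
    obtain ⟨s, hs, hmem⟩ := hball (p.getVert (n * D)) C
    have hsub : {y | Bd π (E n) y} ⊆ (s : Set X) := by
      rintro y ⟨hy, a, ha⟩
      have hout : act π [a] • y ∉ P n := fun h => ha (Conn.extend hy a h)
      refine hmem y ?_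
      rw [SimpleGraph.dist_comm]
      refine (dist_cross hT hy.mem hout).trans ?_
      rw [SimpleGraph.dist_comm]
      exact hC a y
    exact ⟨s.finite_toSet.subset hsub,
      (Set.ncard_le_ncard hsub s.finite_toSet).trans ((Set.ncard_coe_finset s).le.trans hs)⟩
  have hgap : ∀ n, n + 1 < K → ∀ y ∈ E n, ∀ z, Near π (r + 1) y z → z ∈ E (n + 1) := by
    rintro n hn y hy z ⟨u, hu, rfl⟩
    have hstep : (n : ℕ) * D + D = (n + 1) * D := by ring
    have hsub : P n ⊆ P (n + 1) := fun q hq =>
      side_mono hT hpath (show n * D < (n + 1) * D by omega) (hlt _ hn) hq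
    refine conn_trail u (hy.mono hsub) fun v hv => ?_
    refine step_mem_side hT hpath hp (i := n * D) (L := (r + 1) * C) ?_ (hlt _ hn) hy.mem ?_
    · omega
    · rw [SimpleGraph.dist_comm]
      exact (dist_smul_le hT hC v y).trans
        (Nat.mul_le_mul_right _ (hv.length_le.trans hu))
  refine no_chain ht hR hlen hr (Nat.lt_succ_self _) E x₀ (fun n hn => (hb n hn).1)
    (fun n _ => Conn.base (hbase n)) (fun n _ x hx => Conn.self hx) (fun n hn => (hb n hn).2)
    hgap (fun n hn heq => ?_)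
  have hinv : ∀ x ∈ E n, ∀ a, act π [a] • x ∈ E n := fun x hx a => by
    rw [← heq]
    exact hgap n hn x hx _ ⟨[a], by simp, rfl⟩
  have hmem := (smul_mem_of_closed hπ hinv (Conn.base (hbase n)) g).mem
  change f (g • x₀) ∈ Side p (n * D) at hmem
  have h := getVert_not_mem_side hT hpath (hlt n (by omega)) le_rfl
  rw [SimpleGraph.Walk.getVert_length] at h
  exact h hmem

/-- A finitely presented periodic group moving points of a tree of bounded degree boundedly
acts through a finite group. -/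
theorem finite_range [Group.IsFinitelyPresented G] (ht : IsMulTorsion G) (hT : T.IsTree)
    {d : ℕ} (hd : ∀ v, (T.neighborSet v).Finite ∧ (T.neighborSet v).ncard ≤ d)
    {Y : Type*} (φ : G →* Equiv.Perm Y) (f : Y → V) {M : ℕ}
    (hf : ∀ v, (f ⁻¹' {v}).Finite ∧ (f ⁻¹' {v}).ncard ≤ M)
    (hφ : ∀ g, ∃ C : ℕ, ∀ y, T.dist (f (φ g y)) (f y) ≤ C) : Finite φ.range := by
  classical
  obtain ⟨m, r, π, R, hπ, hR, hlen, hr⟩ := exists_relators G
  let A : MulAction G Y := MulAction.compHom Y φ
  choose C hC using hφ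
  have hC' : ∀ (a : Fin m × Bool) (y : Y), T.dist (f (act π [a] • y)) (f y) ≤
      Finset.univ.sup fun a => C (act π [a]) := fun a y =>
    (hC (act π [a]) y).trans
      (Finset.le_sup (f := fun a => C (act π [a])) (Finset.mem_univ a))
  obtain ⟨N, hN⟩ := orbit_bound hπ ht hR hlen hr hT hd hf hC'
  have hfinHom : Finite (G →* Equiv.Perm (Fin N)) := by
    refine Finite.of_injective (fun (q : G →* Equiv.Perm (Fin N)) i => q (π (FreeGroup.of i))) ?_
    intro q q' h
    have h' : q.comp π = q'.comp π := FreeGroup.ext_hom _ _ fun i => congrFun h i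
    refine MonoidHom.ext fun g => ?_
    obtain ⟨t, rfl⟩ := hπ g
    exact DFunLike.congr_fun h' t
  have sep : ∀ g : G, (∀ q : G →* Equiv.Perm (Fin N), q g = 1) → φ g = 1 := by
    intro g hg
    refine Equiv.ext fun x => ?_
    obtain ⟨s, hs, hmem⟩ := hN x
    have hsub : MulAction.orbit G x ⊆ (s : Set Y) := fun y ⟨k, hk⟩ => hk ▸ hmem k
    have horb : (MulAction.orbit G x).Finite := s.finite_toSet.subset hsub
    have := horb.fintype
    obtain ⟨ι⟩ : Nonempty (MulAction.orbit G x ↪ Fin N) := by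
      refine Function.Embedding.nonempty_of_card_le ?_
      rw [Fintype.card_fin, ← Nat.card_eq_fintype_card, Nat.card_coe_set_eq]
      exact (Set.ncard_le_ncard hsub s.finite_toSet).trans ((Set.ncard_coe_finset s).le.trans hs)
    have h1 := hg ((Equiv.Perm.viaEmbeddingHom ι).comp
      (MulAction.toPermHom G (MulAction.orbit G x)))
    rw [MonoidHom.comp_apply, ← map_one (Equiv.Perm.viaEmbeddingHom ι)] at h1
    have h2 := Equiv.congr_fun (Equiv.Perm.viaEmbeddingHom_injective ι h1)
      ⟨x, MulAction.mem_orbit_self x⟩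
    exact congrArg Subtype.val h2
  let Θ : G →* ((G →* Equiv.Perm (Fin N)) → Equiv.Perm (Fin N)) :=
    MonoidHom.mk' (fun g q => q g) fun a b => funext fun q => map_mul q a b
  refine Finite.of_injective (fun y : φ.range => Θ (Classical.choose y.2)) ?_
  intro y y' h
  refine Subtype.ext ?_
  rw [← Classical.choose_spec y.2, ← Classical.choose_spec y'.2]
  have := sep ((Classical.choose y'.2)⁻¹ * Classical.choose y.2) fun q => by
    rw [map_mul, map_inv, inv_mul_eq_one]
    exact (congrFun h q).symm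
  rw [map_mul, map_inv, inv_mul_eq_one] at this
  exact this.symm

end Vale.Agent.P192.TreeLike
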